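import Vale.Agent.P218Y.Defs

/-!
# P218V: almost regular flows, the measures being prescribed at regular points only
-/

open MeasureTheory Metric Filter Topology Set
open scoped ENNReal NNReal
open Vale.Agent.P218R Vale.Agent.P218E Vale.Agent.P218Z

noncomputable section

namespace Vale.Agent.P218V

/-- `M` is the track of `μ`; `μ` is the area of `M` near regular points; almost every time is
regular, points of density one are regular, the genus is bounded -/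
structure IsAlm2 (μ : ℝ → Measure E3) (M : ℝ → Set E3) (a b : ℝ) : Prop where
  cpt : ∀ c d, a < c → d < b → IsCompact {p : ℝ × E3 | p.1 ∈ Icc c d ∧ p.2 ∈ M p.1}
  car : ∀ t ∈ Ioo a b, ∀ᵐ x ∂μ t, x ∈ M t
  dense : ∀ t ∈ Ioo a b, ∀ x ∈ M t,
    (t, x) ∈ closure {p : ℝ × E3 | p.2 ∈ M p.1 ∧ p.1 ∈ Ioo a b ∧ RegT M p.1}
  ae : ∀ᵐ t, t ∈ Ioo a b → RegT M t
  loc : ∀ t ∈ Ioo a b, ∀ x ∈ M t, RegPt M t x → ∃ r > (0 : ℝ),
    (μ t).restrict (ball x r) = ((μH[2] : Measure E3).restrict (M t)).restrict (ball x r)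
  eq : ∀ t ∈ Ioo a b, RegT M t → μ t = (μH[2] : Measure E3).restrict (M t)
  unit : ∀ c : ℝ≥0, H2 = c • (μH[2] : Measure E3) → ∀ t ∈ Ioo a b, ∀ x ∈ M t,
    Tendsto (fun r => gs (c • μ (t - r ^ 2)) x r) (𝓝[>] 0) (𝓝 1) → RegPt M t x
  genus : ∃ g : ℝ, ∀ t ∈ Ioo a b, RegT M t → ∀ S : Srf, S.Ok → S.G = M t → ∀ x ∈ M t,
    -g ≤ ∫ y in connectedComponentIn (M t) x, S.K y ∂S.μ

end Vale.Agent.P218V
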