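import Vale.Agent.P218Z.Gap
import Vale.Agent.P218V.Defs

/-!
# P218V: the density gap, the measures being areas at almost every time only
-/

open MeasureTheory Metric Filter Topology Set
open scoped RealInnerProductSpace ENNReal NNReal
open Vale.Agent.P218 (IsIntegralBrakkeFlow)
open Vale.Agent.P218.H552
open Vale.Agent.P218R Vale.Agent.P218E
open Vale.Agent.P218Z

noncomputable section

namespace Vale.Agent.P218V

theorem freq {P : ℝ → Prop} (h : ∀ᵐ s, P s) (t : ℝ) : ∃ᶠ r in 𝓝[>] (0 : ℝ), P (t - r ^ 2) := by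
  refine (nhdsGT_basis 0).frequently_iff.2 fun ρ hρ => ?_
  obtain ⟨s, hs, k⟩ := Measure.exists_mem_of_measure_ne_zero_of_ae
    (s := Ioo (t - ρ ^ 2) t) (μ := volume) (by simpa using hρ.ne') (ae_restrict_of_ae h)
  have p := sub_pos.2 hs.2
  exact ⟨√(t - s), ⟨Real.sqrt_pos.2 p, (Real.sqrt_lt' hρ).2 (by linarith [hs.1])⟩, by
    rwa [Real.sq_sqrt p.le, sub_sub_cancel]⟩

open Fl in
theorem flat2 {Λ : ℝ} (hΛ : 0 ≤ Λ) : ∃ ε > (0 : ℝ), ∀ (μ : ℝ → Measure E3) (T : ℝ → Set E3)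
    (a b t ρ : ℝ) (x : E3), Wf μ T a b Λ → (∀ᵐ s, s ∈ Ioo a b → μ s = H2.restrict (T s)) →
    (∀ s₁ s₂, a < s₁ → s₁ ≤ s₂ → s₂ < t → gs (μ s₂) x √(t - s₂) ≤ gs (μ s₁) x √(t - s₁)) →
    0 < ρ → a < t - ρ ^ 2 → t < b → x ∈ T t →
    (∀ s s' y, t - ρ ^ 2 ≤ s' → s' < s → s' < t → s ≤ t + ρ ^ 2 → ‖y - x‖ ≤ ρ →
      gs (μ s') y √(s - s') ≤ 1 + ε) →
    Tendsto (fun r => gs (μ (t - r ^ 2)) x r) (𝓝[>] 0) (𝓝 1) := by
  obtain ⟨δ, δ0, σ₀, σ0, h1⟩ := gra hΛ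
  obtain ⟨η, η0, η1, δ', δ1, h2⟩ := ini hΛ σ0
  refine ⟨min δ δ', by positivity, fun μ T a b t ρ x hW hμ mo hρ ha hb hx hU => ?_⟩
  have r0 := pow_pos hρ 2
  obtain ⟨e, he, hS⟩ := h2 μ T a b t ρ x hW hρ ha hb hx fun y τ hy hτ => by
    obtain ⟨k1, k2⟩ := abs_le.1 hτ
    have := hU (t - ρ ^ 2 + τ) (t - ρ ^ 2) y le_rfl (by linarith) (by linarith) (by linarith) hy
    rw [add_sub_cancel_left] at this
    linarith [min_le_right δ δ']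
  have r1 : η * ρ ≤ ρ := by nlinarith
  have r2 := pow_le_pow_left₀ (by positivity) r1 2
  have h3 := h1 μ T a b t (η * ρ) x e hW (by positivity) (by linarith) hb hx
    (fun s s' a1 a2 a3 y _ hy => (hU s s' y (by linarith) a2 (a2.trans_le a3) (by linarith)
      (hy.trans r1)).trans (by linarith [min_le_left δ δ'])) he hS
  have ev : ∀ R > (0 : ℝ), ∀ᶠ r in 𝓝[>] (0 : ℝ), 0 < r ∧ r ^ 2 ≤ R ^ 2 := fun R hR => by
    filter_upwards [Ioo_mem_nhdsGT hR] with r hr using ⟨hr.1, pow_le_pow_left₀ hr.1.le hr.2.le 2⟩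
  refine tendsto_order.2 ⟨fun c hc => ?_, fun c hc => ?_⟩
  · filter_upwards [ev ρ hρ] with r ⟨a1, a2⟩
    have := hW.ld t (t - r ^ 2) x (by linarith) (by nlinarith) hb hx
    rw [sub_sub_cancel, Real.sqrt_sq a1.le] at this
    linarith
  obtain ⟨θ, θ0, θ1, θ2⟩ : ∃ θ > (0 : ℝ), θ ≤ 1 ∧ 1 + 2 * θ < c :=
    ⟨min 1 ((c - 1) / 3), by simp [hc], min_le_left _ _, by
      linarith [min_le_right 1 ((c - 1) / 3)]⟩
  obtain ⟨R, R0, e', he', h4⟩ := h3 (θ / 2) (by positivity)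
  obtain ⟨r, h5, ⟨a1, a2⟩, ⟨-, a3⟩, a4⟩ := ((freq hμ t).and_eventually ((ev ρ hρ).and
    ((ev R R0).and (Gs.small (r := R) (Gs.C0 * Λ) θ0)))).exists
  have t0 : t - r ^ 2 ∈ Ioo a b := ⟨by linarith, by nlinarith⟩
  have p := Real.pi_pos
  have a5 := Gs.tail_gs (y := x) hΛ (hW.ar _ t0) a1 R0 (measurableSet_ball (x := x) (ε := R)).compl
    (.of_forall fun z hz => not_lt.1 fun h => hz (mem_ball_iff_norm.2 h))
  have a6 := gra_le (A := ball x R ∩ T (t - r ^ 2)) (K := (√(1 + θ)).toNNReal) he'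
    (σ := θ / 2) (by
      rw [Real.coe_toNNReal _ (Real.sqrt_nonneg _), Real.sq_sqrt (by linarith)]
      nlinarith [mul_le_one₀ θ1 θ0.le θ1])
    (fun p hp q hq => h4 _ ⟨by linarith, by nlinarith⟩ p ⟨hp.2, hp.1⟩ q ⟨hq.2, hq.1⟩) x
    (c := 4 * r ^ 2) (by positivity)
  rw [Real.coe_toNNReal _ (Real.sqrt_nonneg _), Real.sq_sqrt (by linarith),
    ← Measure.restrict_restrict measurableSet_ball, ← h5 t0] at a6
  have a7 := mul_le_mul_of_nonneg_left a6 (show 0 ≤ (4 * Real.pi * r ^ 2)⁻¹ by positivity)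
  have a8 : (4 * Real.pi * r ^ 2)⁻¹ * ((1 + θ) * (Real.pi * (4 * r ^ 2))) = 1 + θ := by field_simp
  have a9 : gs (μ (t - r ^ 2)) x r < c := by
    rw [gs, ← integral_add_compl (measurableSet_ball (x := x) (ε := R))
      (Gs.intg hΛ (hW.ar _ t0) x (by positivity)), mul_add]
    linarith only [a4, a5, a7, a8, θ2]
  filter_upwards [ev r a1] with q ⟨b1, b2⟩
  have := mo (t - r ^ 2) (t - q ^ 2) t0.1 (by linarith) (by nlinarith)
  rw [sub_sub_cancel, sub_sub_cancel, Real.sqrt_sq a1.le, Real.sqrt_sq b1.le] at this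
  exact this.trans_lt a9

open Fl in
/-- the density gap -/
theorem gapV (Λ : ℝ) : ∃ ε > (0 : ℝ), ∀ (μ ν : ℝ → Measure E3) (c : ℝ≥0) (M : ℝ → Set E3)
    (a b s t : ℝ) (x : E3), IsIntegralBrakkeFlow 2 μ → μ 0 univ < ⊤ → 0 ≤ a →
    (∀ r ∈ Ioo a b, c • μ r = ν r) → (∀ r ∈ Ioo a b, AR Λ (ν r)) →
    (∀ r ∈ Ioo a b, ∀ᵐ y ∂ν r, y ∈ M r) → (∀ᵐ r, r ∈ Ioo a b → ν r = H2.restrict (M r)) →
    (∀ (s₁ s₂ t₀ : ℝ) (x : E3), a < s₁ → s₁ ≤ s₂ → s₂ < b → s₂ < t₀ →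
      gs (ν s₂) x √(t₀ - s₂) ≤ gs (ν s₁) x √(t₀ - s₁)) →
    (∀ (s t : ℝ) (y : E3), a < t → t < s → s < b → y ∈ M s → 1 ≤ gs (ν t) y √(s - t)) →
    a < s → s < t → t < b → x ∈ M t → gs (ν s) x √(t - s) < 1 + ε →
    Tendsto (fun r => gs (ν (t - r ^ 2)) x r) (𝓝[>] 0) (𝓝 1) := by
  obtain ⟨ε, ε0, h⟩ := flat2 (le_max_right Λ 0)
  refine ⟨ε, ε0, fun μ ν c M a b s t x hB h0 ha e ar car eq mono ld h1 h2 h3 hx hg => ?_⟩
  obtain ⟨T, H, hB⟩ := exists_BF hB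
  have hW : Wf ν M a b (max Λ 0) := by
    refine ⟨le_max_right _ _, fun r hr => Gs.ar_max (ar r hr), car,
      fun t₀ s R β v y z a1 a2 a3 hy a4 a5 a6 a7 => ?_, ld⟩
    have := mv (θ := 1) (e := v) (BF.smul hB c) (by
      rw [Measure.smul_apply]
      exact ENNReal.mul_lt_top ENNReal.coe_lt_top h0) (ha.trans a1.le) a2 a4 a5 a6
      (fun r hr => by
        have k : r ∈ Ioo a b := ⟨a1.trans_le hr.1, hr.2.trans a3⟩
        rw [e r k]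
        exact (car r k).mono (a7 r hr)) zero_le_one (Eventually.frequently (by
        filter_upwards [Ioo_mem_nhdsLT (a1.trans a2)] with r hr
        rw [e r ⟨hr.1, hr.2.trans a3⟩]
        exact ld s r y hr.1 hr.2 a3 hy))
    rwa [one_mul, e t₀ ⟨a1, a2.trans a3⟩] at this
  have c1 : ContinuousAt (fun p : ℝ × E3 => gs (ν s) p.2 √(p.1 - s)) (t, x) :=
    ContinuousAt.comp (g := fun p : E3 × ℝ => gs (ν s) p.1 p.2)
      (f := fun p : ℝ × E3 => (p.2, √(p.1 - s))) (Fl.gs_cont2 hW.pos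
        (hW.ar s ⟨h1, h2.trans h3⟩) x (Real.sqrt_pos.2 (sub_pos.2 h2))) (by fun_prop)
  obtain ⟨δ, δ0, hδ⟩ := nhds_basis_closedBall.eventually_iff.1
    ((c1.eventually_lt_const hg).and ((continuous_fst.tendsto _).eventually_const_lt h2))
  obtain ⟨ρ, ρ0, ρ1, ρ2⟩ : ∃ ρ > (0 : ℝ), ρ ≤ δ ∧ ρ ≤ 1 :=
    ⟨min δ 1, by positivity, min_le_left _ _, min_le_right _ _⟩
  have ρ3 : ρ ^ 2 ≤ δ := by nlinarith
  have k : ∀ r y, t - ρ ^ 2 ≤ r → r ≤ t + ρ ^ 2 → ‖y - x‖ ≤ ρ →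
      gs (ν s) y √(r - s) < 1 + ε ∧ s < r := fun r y a1 a2 a3 => hδ (x := (r, y)) (by
    rw [mem_closedBall, Prod.dist_eq, max_le_iff, Real.dist_eq, abs_le, dist_eq_norm]
    exact ⟨⟨by linarith, by linarith⟩, a3.trans ρ1⟩)
  have k0 := (k (t - ρ ^ 2) x le_rfl (by nlinarith) (by simpa using ρ0.le)).2
  exact h ν M a b t ρ x hW eq (fun s₁ s₂ a1 a2 a3 => mono s₁ s₂ t x a1 a2 (a3.trans h3) a3) ρ0
    (h1.trans k0) h3 hx fun r r' y a1 a2 a3 a4 a5 =>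
      (mono s r' r y h1 (k0.le.trans a1) (a3.trans h3) a2).trans
        (k r y (a1.trans a2.le) a4 a5).1.le

end Vale.Agent.P218V
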