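import Vale.Agent.P218V.Defs
import Vale.Agent.P218Z.Ld

/-!
# P218V: if the singular set is small the measures are areas at all times
-/

open MeasureTheory Metric Filter Topology Set
open scoped ENNReal NNReal
open Vale.Agent.P218R Vale.Agent.P218E Vale.Agent.P218Z

noncomputable section

namespace Vale.Agent.P218V

variable {Z : Set (ℝ × E3)} {s : ℝ}

theorem slice (h : PNull Z) (s : ℝ) {δ : ℝ} (d0 : 0 < δ) : ∃ (p : ℕ → E3) (r : ℕ → ℝ),
    (∀ i, 0 < r i) ∧ {x | (s, x) ∈ Z} ⊆ ⋃ i, ball (p i) (r i) ∧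
      ∑' i, ENNReal.ofReal (r i ^ 2) ≤ ENNReal.ofReal δ := by
  obtain ⟨p, r, h1, h2, h3⟩ := h δ d0
  refine ⟨fun i => (p i).2, r, h1, fun x hx => ?_, h3⟩
  obtain ⟨i, hi⟩ := mem_iUnion.1 (h2 hx)
  exact mem_iUnion.2 ⟨i, hi.2⟩

theorem tz (C : ℝ) : Tendsto (fun n : ℕ => ENNReal.ofReal (C * (1 / ((n : ℝ) + 1)))) atTop
    (𝓝 0) := by
  simpa using ENNReal.tendsto_ofReal
    ((tendsto_one_div_add_atTop_nhds_zero_nat (𝕜 := ℝ)).const_mul C)

theorem null_ar (h : PNull Z) {κ : Measure E3} {Λ : ℝ} (hA : AR Λ κ) :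
    κ {x | (s, x) ∈ Z} = 0 := by
  refine nonpos_iff_eq_zero.1 (ge_of_tendsto' (tz (max Λ 0)) fun n => ?_)
  obtain ⟨p, r, h1, h2, h3⟩ := slice h s (Nat.one_div_pos_of_nat (n := n))
  rw [ENNReal.ofReal_mul (le_max_right _ _)]
  refine (measure_mono h2).trans ((measure_iUnion_le _).trans (le_trans ?_
    (mul_le_mul_right h3 _)))
  rw [← ENNReal.tsum_mul_left]
  refine ENNReal.tsum_le_tsum fun i => (measure_mono ball_subset_closedBall).trans
    ((hA.mono (le_max_left Λ 0) _ _ (h1 i)).trans_eq (ENNReal.ofReal_mul (le_max_right _ _)))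

theorem null_H (h : PNull Z) : (μH[2] : Measure E3) {x | (s, x) ∈ Z} = 0 := by
  choose p r h1 h2 h3 using fun n : ℕ => slice h s
    (pow_pos (Nat.one_div_pos_of_nat (α := ℝ) (n := n)) 2)
  have d : ∀ n i, ediam (ball (p n i) (r n i)) ≤ ENNReal.ofReal (2 * r n i) := fun n i =>
    ediam_le_of_forall_dist_le fun x hx y hy => by
      linarith [dist_triangle_right x y (p n i), mem_ball.1 hx, mem_ball.1 hy]
  refine nonpos_iff_eq_zero.1 ((Measure.hausdorffMeasure_le_liminf_tsum 2 _ _ (tz 2)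
    (fun n i => ball (p n i) (r n i)) (.of_forall fun n i => (d n i).trans
      (ENNReal.ofReal_le_ofReal ?_)) (.of_forall h2)).trans ?_)
  · have := (ENNReal.le_tsum i).trans (h3 n)
    rw [ENNReal.ofReal_le_ofReal_iff (sq_nonneg _)] at this
    linarith [le_of_sq_le_sq this (Nat.one_div_pos_of_nat (n := n)).le]
  · rw [← (tz 4).liminf_eq]
    refine liminf_le_liminf (.of_forall fun n => ?_)
    have q := Nat.one_div_pos_of_nat (α := ℝ) (n := n)
    have q1 : 1 / ((n : ℝ) + 1) ≤ 1 := (div_le_one (by positivity)).2 (by simp)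
    rw [ENNReal.ofReal_mul (by norm_num)]
    refine le_trans ?_ (mul_le_mul_right ((h3 n).trans (ENNReal.ofReal_le_ofReal
      (by nlinarith))) _)
    rw [← ENNReal.tsum_mul_left]
    refine ENNReal.tsum_le_tsum fun i => (ENNReal.rpow_le_rpow (d n i) zero_le_two).trans_eq ?_
    rw [ENNReal.rpow_two, ← ENNReal.ofReal_pow (by linarith [h1 n i]),
      ← ENNReal.ofReal_mul (by norm_num)]
    congr 1
    ring

theorem eq_loc {κ ν : Measure E3} {W : Set E3} (h1 : ∀ᵐ x ∂κ, x ∈ W) (h2 : ∀ᵐ x ∂ν, x ∈ W)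
    (h : ∀ x ∈ W, ∃ r > (0 : ℝ), κ.restrict (ball x r) = ν.restrict (ball x r)) : κ = ν := by
  choose! r r0 hr using h
  obtain ⟨T, t1, t2, t3⟩ := TopologicalSpace.countable_cover_nhdsWithin (s := W)
    (f := fun x => ball x (r x)) fun x hx => mem_nhdsWithin_of_mem_nhds (ball_mem_nhds x (r0 x hx))
  rw [← Measure.restrict_eq_self_of_ae_mem (h1.mono fun x hx => t3 hx),
    ← Measure.restrict_eq_self_of_ae_mem (h2.mono fun x hx => t3 hx)]
  exact (Measure.restrict_biUnion_congr t2).2 fun x hx => hr x (t1 hx)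

theorem eq_all {μ : ℝ → Measure E3} {M : ℝ → Set E3} {a b u t Λ : ℝ} (h : IsAlm2 μ M a b)
    (hN : PNull (Sing M ∩ Ioo u t ×ˢ univ)) (hs : s ∈ Ioo u t) (hs' : s ∈ Ioo a b)
    (hA : AR Λ (μ s)) : μ s = (μH[2] : Measure E3).restrict (M s) := by
  have m : MeasurableSet (M s) := (cpt_sl (h.cpt s s hs'.1 hs'.2)).measurableSet
  have k : ∀ {κ : Measure E3}, κ {x | (s, x) ∈ Sing M ∩ Ioo u t ×ˢ univ} = 0 →
      (∀ᵐ x ∂κ, x ∈ M s) → ∀ᵐ x ∂κ, x ∈ {x | x ∈ M s ∧ RegPt M s x} := fun h1 h2 => by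
    filter_upwards [measure_eq_zero_iff_ae_notMem.1 h1, h2] with x x1 x2
    exact ⟨x2, by_contra fun n => x1 ⟨⟨x2, n⟩, hs, trivial⟩⟩
  exact eq_loc (k (null_ar hN hA) (h.car s hs')) (k (nonpos_iff_eq_zero.1
    ((Measure.restrict_le_self _).trans_eq (null_H hN))) (ae_restrict_mem m))
    fun x hx => h.loc s hs' x hx.1 hx.2

end Vale.Agent.P218V
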